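import Vale.Agent.P347.Gibbs
import Vale.Agent.P074.PrekopaLeindler
attribute [-instance] ProperSMul.toContinuousSMul IsTopologicalTorsor.toContinuousSMul IdemSemiring.toCanonicallyOrderedAdd IdemSemiring.toMulLeftMono IdemSemiring.toMulRightMono AddQuantale.instAddLeftMono AddQuantale.instAddRightMono Quantale.instMulLeftMono Quantale.instMulRightMono FiniteDimensional.rclike_to_real IsScalarTower.complexToReal FiniteDimensional.complexToReal

/-! Auxiliary file for task B (P347): Prekopa-Leindler on `E` and the Poincare inequality for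
compactly supported functions. -/

open MeasureTheory Filter Module Set Topology
open scoped ENNReal NNReal

namespace Vale.Agent.P347

variable {E : Type*} [NormedAddCommGroup E] [InnerProductSpace ℝ E] [FiniteDimensional ℝ E]
  [MeasurableSpace E] [BorelSpace E]

theorem pl_enn (f g h : E → ℝ≥0∞) (hf : Measurable f) (hg : Measurable g) (hh : Measurable h)
    (hfg : ∀ x y, f x * g y ≤ h ((2 : ℝ)⁻¹ • (x + y)) ^ 2) :
    (∫⁻ x, f x) * (∫⁻ x, g x) ≤ (∫⁻ x, h x) ^ 2 := by
  set b := stdOrthonormalBasis ℝ E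
  have hmp := b.measurePreserving_repr_symm
  rw [← hmp.lintegral_comp hf, ← hmp.lintegral_comp hg, ← hmp.lintegral_comp hh]
  refine Vale.Agent.P074.prekopa_leindler _ _ _ (hf.comp hmp.measurable) (hg.comp hmp.measurable)
    (hh.comp hmp.measurable) fun x y => ?_
  have := hfg (b.repr.symm x) (b.repr.symm y)
  simpa only [smul_add, map_add, map_smul, ge_iff_le] using this

theorem pl_exp {A B C : E → ℝ} (hA : Continuous A) (hB : Continuous B) (hC : Continuous C)
    (iC : Integrable (fun x => Real.exp (C x)) (volume : Measure E))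
    (h : ∀ x y, A x + B y ≤ 2 * C ((2 : ℝ)⁻¹ • (x + y))) :
    (∫⁻ x, ENNReal.ofReal (Real.exp (A x))) * (∫⁻ x, ENNReal.ofReal (Real.exp (B x)))
      ≤ ENNReal.ofReal ((∫ x, Real.exp (C x)) ^ 2) := by
  have h1 := pl_enn (fun x : E => ENNReal.ofReal (Real.exp (A x)))
    (fun x => ENNReal.ofReal (Real.exp (B x))) (fun x => ENNReal.ofReal (Real.exp (C x)))
    (by (clear B C hB hC iC h; fun_prop)) (by (clear A C hA hC iC h; fun_prop)) (by (clear A B hA hB iC h; fun_prop)) (fun x y => by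
      rw [← ENNReal.ofReal_mul (Real.exp_pos _).le, ← ENNReal.ofReal_pow (Real.exp_pos _).le,
        ← Real.exp_add, ← Real.exp_nat_mul]
      exact ENNReal.ofReal_le_ofReal (Real.exp_le_exp.2 (by exact_mod_cast h x y)))
  rw [← ofReal_integral_eq_lintegral_ofReal iC
    (Eventually.of_forall fun x => (Real.exp_pos _).le)] at h1
  rwa [ENNReal.ofReal_pow (integral_nonneg fun x => (Real.exp_pos _).le)]

theorem pl_exp_real {A B C : E → ℝ} (hA : Continuous A) (hB : Continuous B) (hC : Continuous C)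
    (iA : Integrable (fun x => Real.exp (A x)) (volume : Measure E))
    (iB : Integrable (fun x => Real.exp (B x)) (volume : Measure E))
    (iC : Integrable (fun x => Real.exp (C x)) (volume : Measure E))
    (h : ∀ x y, A x + B y ≤ 2 * C ((2 : ℝ)⁻¹ • (x + y))) :
    (∫ x, Real.exp (A x)) * (∫ x, Real.exp (B x)) ≤ (∫ x, Real.exp (C x)) ^ 2 := by
  have h1 := pl_exp hA hB hC iC h
  rw [← ofReal_integral_eq_lintegral_ofReal iA
    (Eventually.of_forall fun x => (Real.exp_pos _).le),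
    ← ofReal_integral_eq_lintegral_ofReal iB
    (Eventually.of_forall fun x => (Real.exp_pos _).le),
    ← ENNReal.ofReal_mul (integral_nonneg fun x => (Real.exp_pos _).le)] at h1
  exact (ENNReal.ofReal_le_ofReal_iff (by (clear A B hA hB hC iA iB iC h h1; positivity))).1 h1

omit [FiniteDimensional ℝ E] [MeasurableSpace E] [BorelSpace E] in
/-- The directional variation bound behind the Poincare inequality. -/
lemma sup_bound {m : ℝ} (hm : 0 < m) {f : E → ℝ} {g : E → E}
    (hf : ∀ x, HasFDerivAt f (innerSL ℝ (g x)) x) {L : ℝ} (hL : ∀ x, ‖g x‖ ≤ L)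
    {ε δ : ℝ} (hε : 0 < ε) (hu : ∀ x y, ‖x - y‖ ≤ δ → ‖g x - g y‖ ≤ ε)
    {t : ℝ} (ht : 0 < t) (htδ : 4 * (t * L) ≤ m * δ) (x y : E) :
    t * (f x - f y) - m / 4 * ‖x - y‖ ^ 2
      ≤ t ^ 2 * (‖g ((2 : ℝ)⁻¹ • (x + y))‖ + ε) ^ 2 / m := by
  set z := (2 : ℝ)⁻¹ • (x + y) with hz
  have hr := norm_nonneg (x - y)
  have hg0 := norm_nonneg (g z)
  have hL0 : 0 ≤ L := (norm_nonneg _).trans (hL x)
  by_cases hxy : ‖x - y‖ ≤ δ
  · have h1 : f x - f y ≤ (‖g z‖ + ε) * ‖x - y‖ := by
      have h2 : ‖f x - f y‖ ≤ (‖g z‖ + ε) * ‖x - y‖ := by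
        refine Convex.norm_image_sub_le_of_norm_hasFDerivWithin_le (𝕜 := ℝ) (s := segment ℝ y x)
          (f' := fun w => innerSL ℝ (g w)) (fun w _ => (hf w).hasFDerivWithinAt) ?_
          (convex_segment y x) (left_mem_segment ℝ y x) (right_mem_segment ℝ y x)
        intro w hw
        rw [innerSL_apply_norm]
        obtain ⟨a, b, ha, hb, hab, rfl⟩ := hw
        have h3 : ‖(a • y + b • x) - z‖ ≤ δ := by
          have : (a • y + b • x) - z = ((b - 1 / 2 : ℝ)) • (x - y) := by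
            rw [hz]
            have ha' : a = 1 - b := by linarith only [hab]
            subst ha'
            module
          rw [this, norm_smul]
          have hb1 : |b - 1 / 2| ≤ 1 := by rw [abs_le]; constructor <;> (first | linarith only [hb] | linarith only [hab, ha])
          calc ‖(b - 1 / 2 : ℝ)‖ * ‖x - y‖ ≤ 1 * ‖x - y‖ := by
                gcongr
                exact hb1
            _ ≤ δ := by linarith only [hxy]
        calc ‖g (a • y + b • x)‖ = ‖g z + (g (a • y + b • x) - g z)‖ := by congr 1; abel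
          _ ≤ ‖g z‖ + ‖g (a • y + b • x) - g z‖ := norm_add_le _ _
          _ ≤ ‖g z‖ + ε := by gcongr; exact hu _ _ h3
      exact (le_abs_self _).trans h2
    have h4 : t * (f x - f y) ≤ t * ((‖g z‖ + ε) * ‖x - y‖) := by (clear * - h1 ht; gcongr)
    have h5 : 0 ≤ (t * (‖g z‖ + ε) - m / 2 * ‖x - y‖) ^ 2 := sq_nonneg _
    rw [le_div_iff₀ hm]
    linarith only [mul_nonneg (le_of_lt hm) (sub_nonneg.2 h4), h5]
  · push Not at hxy
    have h1 : f x - f y ≤ L * ‖x - y‖ := by
      have h2 : ‖f x - f y‖ ≤ L * ‖x - y‖ := by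
        refine Convex.norm_image_sub_le_of_norm_hasFDerivWithin_le (𝕜 := ℝ) (s := univ)
          (f' := fun w => innerSL ℝ (g w)) (fun w _ => (hf w).hasFDerivWithinAt) ?_
          convex_univ (mem_univ _) (mem_univ _)
        intro w _
        rw [innerSL_apply_norm]
        exact hL w
      exact (le_abs_self _).trans h2
    have h4 : t * (f x - f y) ≤ t * (L * ‖x - y‖) := by (clear * - h1 ht; gcongr)
    have h5 : 0 ≤ t ^ 2 * (‖g z‖ + ε) ^ 2 / m := by (clear * - ht hε hm; positivity)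
    have h6 : t * L ≤ m / 4 * ‖x - y‖ := by linarith only [mul_pos hm (sub_pos.2 hxy), htδ]
    have h7 : t * (L * ‖x - y‖) ≤ m / 4 * ‖x - y‖ ^ 2 := by
      calc t * (L * ‖x - y‖) = (t * L) * ‖x - y‖ := by ring
        _ ≤ (m / 4 * ‖x - y‖) * ‖x - y‖ := by (clear * - h6; gcongr)
        _ = m / 4 * ‖x - y‖ ^ 2 := by ring
    linarith only [h5, h4, h7]

lemma gibbs_exp {U : E → ℝ} (φ : E → ℝ) :
    ∫ x, Real.exp (φ x) ∂(gibbs U)
      = (∫ x, Real.exp (-U x))⁻¹ * ∫ x, Real.exp (φ x - U x) := by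
  rw [gibbs_integral]
  simp only [smul_eq_mul]
  congr 1
  refine integral_congr_ae (Eventually.of_forall fun x => ?_)
  simp only
  rw [← Real.exp_add]
  congr 1
  ring

/-- Prekopa-Leindler for exponential moments under a Gibbs law. -/
lemma gibbs_pl {U : E → ℝ} {m : ℝ} (hU : Adm U)
    (hc : ∀ x y, U ((2 : ℝ)⁻¹ • (x + y)) ≤ (U x + U y) / 2 - m / 8 * ‖x - y‖ ^ 2)
    {φ ψ : E → ℝ} (cφ : Continuous φ) (cψ : Continuous ψ)
    (iφ : Integrable (fun x => Real.exp (φ x - U x)) (volume : Measure E))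
    (iφ' : Integrable (fun x => Real.exp (-φ x - U x)) (volume : Measure E))
    (iψ : Integrable (fun x => Real.exp (ψ x - U x)) (volume : Measure E))
    (h : ∀ x y, φ x - φ y - m / 4 * ‖x - y‖ ^ 2 ≤ 2 * ψ ((2 : ℝ)⁻¹ • (x + y))) :
    (∫ x, Real.exp (φ x) ∂(gibbs U)) * (∫ x, Real.exp (-φ x) ∂(gibbs U))
      ≤ (∫ x, Real.exp (ψ x) ∂(gibbs U)) ^ 2 := by
  have cU := hU.cont
  have h1 := pl_exp_real (A := fun x => φ x - U x) (B := fun x => -φ x - U x)
    (C := fun x => ψ x - U x) (by fun_prop) (by fun_prop) (by fun_prop) iφ iφ' iψ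
    (fun x y => by have := hc x y; have := h x y; (clear hU cφ cψ iφ iφ' iψ cU; linarith))
  rw [gibbs_exp, gibbs_exp (fun x => -φ x), gibbs_exp]
  have hZ := hU.integral_exp_pos
  have hZ' : 0 ≤ ((∫ x, Real.exp (-U x))⁻¹) ^ 2 := by (clear m hc φ ψ cφ cψ iφ iφ' iψ h cU h1; positivity)
  calc _ = ((∫ x, Real.exp (-U x))⁻¹) ^ 2 *
        ((∫ x, Real.exp (φ x - U x)) * (∫ x, Real.exp (-φ x - U x))) := by ring
    _ ≤ ((∫ x, Real.exp (-U x))⁻¹) ^ 2 * (∫ x, Real.exp (ψ x - U x)) ^ 2 := by gcongr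
    _ = _ := by ring

lemma real_lim {A B D c c' t0 : ℝ} (ht0 : 0 < t0)
    (h : ∀ t, 0 < t → t ≤ t0 → (1 + t * A + t ^ 2 * B / 2 - c * t ^ 3)
      * (1 - t * A + t ^ 2 * B / 2 - c * t ^ 3) ≤ (1 + t ^ 2 * D + c' * t ^ 4) ^ 2) :
    B - A ^ 2 ≤ 2 * D := by
  have h1 : ∀ t ∈ Ioc 0 t0, 0 ≤ 2 * D - B + A ^ 2 + 2 * c' * t ^ 2 + t ^ 2 * (D + c' * t ^ 2) ^ 2
      + 2 * c * t - t ^ 2 * (B / 2 - c * t) ^ 2 := by
    intro t ht
    have h2 := h t ht.1 ht.2
    have h3 : 0 ≤ t ^ 2 * (2 * D - B + A ^ 2 + 2 * c' * t ^ 2 + t ^ 2 * (D + c' * t ^ 2) ^ 2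
      + 2 * c * t - t ^ 2 * (B / 2 - c * t) ^ 2) := by
      linarith only [h2]
    exact nonneg_of_mul_nonneg_right h3 (by have := ht.1; positivity)
  have h4 : Tendsto (fun t : ℝ => 2 * D - B + A ^ 2 + 2 * c' * t ^ 2
      + t ^ 2 * (D + c' * t ^ 2) ^ 2 + 2 * c * t - t ^ 2 * (B / 2 - c * t) ^ 2) (𝓝[>] 0)
      (𝓝 (2 * D - B + A ^ 2)) := by
    have h5 : Continuous (fun t : ℝ => 2 * D - B + A ^ 2 + 2 * c' * t ^ 2
      + t ^ 2 * (D + c' * t ^ 2) ^ 2 + 2 * c * t - t ^ 2 * (B / 2 - c * t) ^ 2) := by fun_prop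
    have h6 := (h5.tendsto 0).mono_left (nhdsWithin_le_nhds (s := Ioi (0 : ℝ)))
    simpa only [ne_eq, OfNat.ofNat_ne_zero, not_false_eq_true, zero_pow, mul_zero, add_zero, zero_mul,     sub_zero] using h6
  have h7 : 0 ≤ 2 * D - B + A ^ 2 := by
    refine ge_of_tendsto h4 ?_
    filter_upwards [Ioc_mem_nhdsGT ht0] with t ht using h1 t ht
  linarith only [h7]

lemma exp_lower {u : ℝ} (hu : |u| ≤ 1) : 1 + u + u ^ 2 / 2 - |u| ^ 3 ≤ Real.exp u := by
  have h := Real.exp_bound hu (n := 3) (by norm_num)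
  simp only [Finset.sum_range_succ, Finset.range_one, Finset.sum_singleton, pow_zero, Nat.factorial, Nat.cast_one, ne_eq, one_ne_zero, not_false_eq_true, div_self, pow_one, Nat.succ_eq_add_one, zero_add, mul_one, div_one, Nat.reduceAdd, Nat.cast_ofNat, Nat.reduceMul] at h
  have h2 := (abs_le.1 h).1
  have h3 : (0 : ℝ) ≤ |u| ^ 3 := by positivity
  norm_num at h2 ⊢
  linarith only [h3, h2]

lemma exp_upper {u : ℝ} (h0 : 0 ≤ u) (hu : u ≤ 1) : Real.exp u ≤ 1 + u + u ^ 2 := by
  have h := Real.abs_exp_sub_one_sub_id_le (x := u) (by rw [abs_of_nonneg h0]; exact hu)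
  have h2 := (abs_le.1 h).2
  linarith only [h2]

/-- Poincare for compactly supported functions. -/
lemma poincare_cs {U : E → ℝ} {m : ℝ} (hm : 0 < m) (hU : Adm U)
    (hc : ∀ x y, U ((2 : ℝ)⁻¹ • (x + y)) ≤ (U x + U y) / 2 - m / 8 * ‖x - y‖ ^ 2)
    {f : E → ℝ} {g : E → E} (hf : ∀ x, HasFDerivAt f (innerSL ℝ (g x)) x) (hg : Continuous g)
    (hcs : HasCompactSupport f) :
    (∫ x, f x ^ 2 ∂(gibbs U)) - (∫ x, f x ∂(gibbs U)) ^ 2
      ≤ (1 / m) * ∫ x, ‖g x‖ ^ 2 ∂(gibbs U) := by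
  have := hU.isProb
  have cf : Continuous f := continuous_iff_continuousAt.2 fun x => (hf x).continuousAt
  have hgcs : HasCompactSupport g := by
    refine (hcs.fderiv ℝ).mono fun x hx => ?_
    rw [Function.mem_support] at hx ⊢
    rw [(hf x).fderiv]
    intro h0
    apply hx
    rw [← norm_eq_zero, ← innerSL_apply_norm (𝕜 := ℝ), h0, norm_zero]
  obtain ⟨M0, hM0⟩ := cf.bounded_above_of_compact_support hcs
  obtain ⟨L0, hL0⟩ := hg.bounded_above_of_compact_support hgcs
  set M := max M0 1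
  set L := max L0 1
  have hM : ∀ x, |f x| ≤ M := fun x => (hM0 x).trans (le_max_left _ _)
  have hL : ∀ x, ‖g x‖ ≤ L := fun x => (hL0 x).trans (le_max_left _ _)
  have hM1 : 1 ≤ M := le_max_right _ _
  have hL1 : 1 ≤ L := le_max_right _ _
  have bInt : ∀ {φ : E → ℝ} (C : ℝ), Continuous φ → (∀ x, |φ x| ≤ C) →
      Integrable φ (gibbs U) := fun C cφ hφ =>
    Integrable.of_bound cφ.aestronglyMeasurable C (Eventually.of_forall hφ)
  have bIntE : ∀ {φ : E → ℝ} (C : ℝ), Continuous φ → (∀ x, φ x ≤ C) →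
      Integrable (fun x => Real.exp (φ x - U x)) (volume : Measure E) := fun C cφ hφ => by
    have cU := hU.cont
    refine (hU.integrable_exp.const_mul (Real.exp C)).mono (by (clear m hm hc f g hf hg hcs cf hgcs M0 hM0 L0 hL0 M L hM hL hM1 hL1 bInt C hφ; fun_prop))
      (Eventually.of_forall fun x => ?_)
    rw [Real.norm_of_nonneg (Real.exp_pos _).le, Real.norm_of_nonneg (by positivity),
      ← Real.exp_add]
    exact Real.exp_le_exp.2 (by have := hφ x; linarith only [this])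
  -- fixed epsilon
  have key : ∀ ε : ℝ, 0 < ε → ε ≤ 1 → (∫ x, f x ^ 2 ∂(gibbs U)) - (∫ x, f x ∂(gibbs U)) ^ 2
      ≤ 2 * ∫ x, (‖g x‖ + ε) ^ 2 / (2 * m) ∂(gibbs U) := by
    intro ε hε hε1
    obtain ⟨δ, hδ, hu⟩ := Metric.uniformContinuous_iff.1
      (hgcs.uniformContinuous_of_continuous hg) ε hε
    have hu' : ∀ x y, ‖x - y‖ ≤ δ / 2 → ‖g x - g y‖ ≤ ε := fun x y hxy => by
      have := hu (a := x) (b := y) (by rw [dist_eq_norm]; linarith only [hxy, hδ])
      rw [dist_eq_norm] at this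
      exact this.le
    set Q : ℝ := (L + 1) ^ 2 / (2 * m) with hQ
    have hQ0 : 0 < Q := by (clear * - hm; positivity)
    set q : E → ℝ := fun x => (‖g x‖ + ε) ^ 2 / (2 * m) with hq
    have cq : Continuous q := by fun_prop
    have hq0 : ∀ x, 0 ≤ q x := fun x => by (clear * - hε hm; positivity)
    have hqQ : ∀ x, q x ≤ Q := fun x => by
      have := hL x
      simp only [hq, hQ]
      (clear * - hε this hε1 hm; gcongr)
    set t0 : ℝ := min (min (1 / (4 * M)) (m * (δ / 2) / (4 * L))) (min 1 (1 / Q)) with ht0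
    have ht0' : 0 < t0 := by (clear * - hm hδ; positivity)
    refine real_lim (t0 := t0) (c := M ^ 3) (c' := Q ^ 2) ht0' fun t ht htt => ?_
    have e1 : t * M ≤ 1 / 4 := by
      have : t ≤ 1 / (4 * M) := htt.trans ((min_le_left _ _).trans (min_le_left _ _))
      rw [le_div_iff₀ (by (clear * -; positivity))] at this
      linarith only [this]
    have e2 : 4 * (t * L) ≤ m * (δ / 2) := by
      have : t ≤ m * (δ / 2) / (4 * L) := htt.trans ((min_le_left _ _).trans (min_le_right _ _))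
      rw [le_div_iff₀ (by positivity)] at this
      linarith only [this]
    have e3 : t ≤ 1 := htt.trans ((min_le_right _ _).trans (min_le_left _ _))
    have e4 : t * Q ≤ 1 := by
      have : t ≤ 1 / Q := htt.trans ((min_le_right _ _).trans (min_le_right _ _))
      rwa [le_div_iff₀ (by (clear * - hm; positivity))] at this
    have e5 : t ^ 2 * Q ≤ 1 := by (refine le_of_not_gt fun hng_ => ?_; linarith only [mul_nonneg (sub_nonneg.2 e3) (le_of_lt (sub_pos.2 hng_)), mul_pos ht (sub_pos.2 hng_), mul_nonneg (le_of_lt ht) (sub_nonneg.2 e4), mul_nonneg (le_of_lt ht) (sub_nonneg.2 e3), mul_nonneg (sub_nonneg.2 e3) (sub_nonneg.2 e3)])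
    have hpl := gibbs_pl (U := U) (m := m) (φ := fun x => t * f x) (ψ := fun x => t ^ 2 * q x) hU hc
      (by fun_prop) (by fun_prop)
      (bIntE (t * M) (by fun_prop) fun x => by
        have := (abs_le.1 (hM x)).2; (clear * - this ht; gcongr))
      (bIntE (t * M) (by fun_prop) fun x => by
        have := (abs_le.1 (hM x)).1; (refine le_of_not_gt fun hng_ => ?_; linarith only [mul_nonneg (sub_nonneg.2 e3) (le_of_lt (sub_pos.2 hng_)), mul_pos ht (sub_pos.2 hng_), mul_nonneg (le_of_lt ht) (sub_nonneg.2 this)]))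
      (bIntE (t ^ 2 * Q) (by fun_prop) fun x => by
        have := hqQ x; (clear * - this ht; gcongr))
      (fun x y => by
        have := sup_bound hm hf hL hε hu' ht e2 x y
        calc t * f x - t * f y - m / 4 * ‖x - y‖ ^ 2
            = t * (f x - f y) - m / 4 * ‖x - y‖ ^ 2 := by ring
          _ ≤ _ := this
          _ = _ := by simp only [hq]; field_simp)
    -- expansions
    have hA : |∫ x, f x ∂(gibbs U)| ≤ M := by
      have := norm_integral_le_of_norm_le_const (μ := gibbs U) (f := f) (C := M)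
        (Eventually.of_forall hM)
      simpa only [ge_iff_le, Real.norm_eq_abs, probReal_univ, mul_one] using this
    have hB0 : 0 ≤ ∫ x, f x ^ 2 ∂(gibbs U) := integral_nonneg fun x => sq_nonneg _
    have lowE : ∀ σ : ℝ, |σ| = 1 → 1 + t * (σ * ∫ x, f x ∂(gibbs U))
        + t ^ 2 * (∫ x, f x ^ 2 ∂(gibbs U)) / 2 - M ^ 3 * t ^ 3
        ≤ ∫ x, Real.exp (σ * (t * f x)) ∂(gibbs U) := by
      intro σ hσ
      have hσ2 : σ ^ 2 = 1 := by rw [← sq_abs, hσ, one_pow]
      have i1 : Integrable f (gibbs U) := bInt M cf hM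
      have i2 : Integrable (fun x => f x ^ 2) (gibbs U) := bInt (M ^ 2) (by fun_prop) fun x => by
        rw [abs_pow]; exact pow_le_pow_left₀ (abs_nonneg _) (hM x) 2
      have hpt : ∀ x, 1 + t * (σ * f x) + t ^ 2 * f x ^ 2 / 2 - M ^ 3 * t ^ 3
          ≤ Real.exp (σ * (t * f x)) := by
        intro x
        have habs : |σ * (t * f x)| = t * |f x| := by
          rw [abs_mul, abs_mul, hσ, one_mul, abs_of_pos ht]
        have h1 : |σ * (t * f x)| ≤ t * M := by rw [habs]; gcongr; exact hM x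
        have h2 := exp_lower (h1.trans (by linarith only [e1]))
        have h3 : |σ * (t * f x)| ^ 3 ≤ (t * M) ^ 3 := pow_le_pow_left₀ (abs_nonneg _) h1 3
        have h4 : (σ * (t * f x)) ^ 2 = t ^ 2 * f x ^ 2 := by
          calc _ = σ ^ 2 * (t ^ 2 * f x ^ 2) := by ring
            _ = _ := by rw [hσ2, one_mul]
        rw [h4] at h2
        linarith only [h2, h3]
      have hint := integral_mono (μ := gibbs U)
        (f := fun x => 1 + t * (σ * f x) + t ^ 2 * f x ^ 2 / 2 - M ^ 3 * t ^ 3)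
        (g := fun x => Real.exp (σ * (t * f x))) ?_ ?_ hpt
      · refine le_trans (le_of_eq ?_) hint
        rw [integral_sub, integral_add, integral_add]
        · simp only [integral_const, probReal_univ, smul_eq_mul, one_mul,
            integral_const_mul, integral_div]
        · exact integrable_const _
        · exact (i1.const_mul σ).const_mul t
        · exact (integrable_const _).add ((i1.const_mul σ).const_mul t)
        · exact (i2.const_mul _).div_const 2
        · exact ((integrable_const _).add ((i1.const_mul σ).const_mul t)).add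
            ((i2.const_mul _).div_const 2)
        · exact integrable_const _
      · exact (((integrable_const _).add ((i1.const_mul σ).const_mul t)).add
            ((i2.const_mul _).div_const 2)).sub (integrable_const _)
      · refine bInt (Real.exp (t * M)) (by fun_prop) fun x => ?_
        rw [abs_of_pos (Real.exp_pos _)]
        refine Real.exp_le_exp.2 ((le_abs_self _).trans ?_)
        rw [abs_mul, abs_mul, hσ, one_mul, abs_of_pos ht]
        gcongr
        exact hM x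
    have upE : ∫ x, Real.exp (t ^ 2 * q x) ∂(gibbs U)
        ≤ 1 + t ^ 2 * (∫ x, q x ∂(gibbs U)) + Q ^ 2 * t ^ 4 := by
      have i1 : Integrable q (gibbs U) := bInt Q cq fun x => by
        rw [abs_of_nonneg (hq0 x)]; exact hqQ x
      have hpt : ∀ x, Real.exp (t ^ 2 * q x) ≤ 1 + t ^ 2 * q x + Q ^ 2 * t ^ 4 := by
        intro x
        have h1 : 0 ≤ t ^ 2 * q x := mul_nonneg (sq_nonneg _) (hq0 x)
        have h2 : t ^ 2 * q x ≤ t ^ 2 * Q := by have := hqQ x; (clear * - this ht; gcongr)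
        have h3 := exp_upper h1 (h2.trans e5)
        have h4 : (t ^ 2 * q x) ^ 2 ≤ (t ^ 2 * Q) ^ 2 := pow_le_pow_left₀ h1 h2 2
        linarith only [h3, h4]
      have hint := integral_mono (μ := gibbs U) (f := fun x => Real.exp (t ^ 2 * q x))
        (g := fun x => 1 + t ^ 2 * q x + Q ^ 2 * t ^ 4) ?_ ?_ hpt
      · refine hint.trans (le_of_eq ?_)
        rw [integral_add, integral_add]
        · simp only [integral_const, probReal_univ, smul_eq_mul, one_mul,
            integral_const_mul]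
        · exact integrable_const _
        · exact i1.const_mul _
        · exact (integrable_const _).add (i1.const_mul _)
        · exact integrable_const _
      · refine bInt (Real.exp (t ^ 2 * Q)) (by fun_prop) fun x => ?_
        rw [abs_of_pos (Real.exp_pos _)]
        refine Real.exp_le_exp.2 ?_
        have := hqQ x
        (clear * - this ht; gcongr)
      · exact ((integrable_const _).add (i1.const_mul _)).add (integrable_const _)
    have l1 := lowE 1 (by simp)
    have l2 := lowE (-1) (by simp)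
    simp only [one_mul, neg_mul] at l1 l2
    have hAl := (abs_le.1 hA).1
    have hAu := (abs_le.1 hA).2
    have hM3 : M ^ 3 * t ^ 3 ≤ 1 / 4 := by
      have h1 : (t * M) ^ 3 ≤ (1 / 4) ^ 3 := pow_le_pow_left₀ (by (clear * - ht; positivity)) e1 3
      calc M ^ 3 * t ^ 3 = (t * M) ^ 3 := by ring
        _ ≤ (1 / 4) ^ 3 := h1
        _ ≤ 1 / 4 := by norm_num
    have hb : 0 ≤ t ^ 2 * (∫ x, f x ^ 2 ∂(gibbs U)) / 2 := by (clear m hm hc g hf hg hcs cf hgcs M0 hM0 L0 hL0 M L hM hL hM1 hL1 bInt bIntE ε hε hε1 δ hδ hu hu' Q hQ hQ0 q hq cq hq0 hqQ t0 ht0 ht0' htt e1 e2 e3 e4 e5 hpl hA hB0 lowE upE l1 l2 hAl hAu hM3; positivity)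
    have p2 : 0 ≤ 1 - t * (∫ x, f x ∂(gibbs U)) + t ^ 2 * (∫ x, f x ^ 2 ∂(gibbs U)) / 2
        - M ^ 3 * t ^ 3 := by (refine le_of_not_gt fun hng_ => ?_; (clear hm hc g hf hg hcs cf hgcs hL0 hL hM1 hL1 bInt bIntE ε hε hε1 hδ hu hu' hQ hQ0 q hq cq hq0 hqQ ht0 ht0' e2 e4 e5 hpl hB0 lowE upE l1 l2 hAl; linarith only [mul_nonneg (sub_nonneg.2 e3) (le_of_lt (sub_pos.2 hng_)), mul_pos ht (sub_pos.2 hng_), mul_nonneg (le_of_lt ht) (sub_nonneg.2 hAu), mul_nonneg (le_of_lt ht) (sub_nonneg.2 hM3), mul_nonneg (le_of_lt ht) hb, mul_nonneg (le_of_lt ht) (sub_nonneg.2 e1), mul_nonneg (sub_nonneg.2 e1) (sub_nonneg.2 e3), mul_nonneg (sub_nonneg.2 e3) (sub_nonneg.2 hM3), mul_nonneg (sub_nonneg.2 e3) hb]))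
    have p1 : 0 ≤ 1 + t * (∫ x, f x ∂(gibbs U)) + t ^ 2 * (∫ x, f x ^ 2 ∂(gibbs U)) / 2
        - M ^ 3 * t ^ 3 := by (refine le_of_not_gt fun hng_ => ?_; linarith only [mul_nonneg (sub_nonneg.2 e3) (le_of_lt (sub_pos.2 hng_)), mul_pos ht (sub_pos.2 hng_), mul_nonneg (le_of_lt ht) (sub_nonneg.2 hAl), mul_nonneg (le_of_lt ht) (sub_nonneg.2 hM3), mul_nonneg (le_of_lt ht) hb, mul_nonneg (le_of_lt ht) (sub_nonneg.2 e1), mul_nonneg (sub_nonneg.2 e1) (sub_nonneg.2 e3), mul_nonneg (sub_nonneg.2 e3) (sub_nonneg.2 hM3), mul_nonneg (sub_nonneg.2 e3) hb])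
    calc _ ≤ (∫ x, Real.exp (t * f x) ∂(gibbs U)) * (∫ x, Real.exp (-(t * f x)) ∂(gibbs U)) := by
          refine mul_le_mul l1 ?_ p2 (integral_nonneg fun x => (Real.exp_pos _).le)
          refine le_trans (le_of_eq ?_) l2
          ring
      _ ≤ _ := hpl
      _ ≤ _ := pow_le_pow_left₀ (integral_nonneg fun x => (Real.exp_pos _).le) upE 2
  refine le_of_forall_pos_le_add fun η hη => ?_
  set ε : ℝ := min 1 (η * m / (2 * L + 1)) with hε
  have hε0 : 0 < ε := by (clear * - hη hm; positivity)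
  refine (key ε hε0 (min_le_left _ _)).trans ?_
  have i1 : Integrable (fun x => ‖g x‖ ^ 2) (gibbs U) := bInt (L ^ 2) (by fun_prop) fun x => by
    rw [abs_of_nonneg (by (clear * -; positivity))]; exact pow_le_pow_left₀ (norm_nonneg _) (hL x) 2
  have h1 : ∫ x, (‖g x‖ + ε) ^ 2 / (2 * m) ∂(gibbs U)
      ≤ ∫ x, (‖g x‖ ^ 2 + ε * (2 * L + 1)) / (2 * m) ∂(gibbs U) := by
    refine integral_mono ?_ ?_ fun x => ?_
    · exact bInt ((L + 1) ^ 2 / (2 * m)) (by fun_prop) fun x => by
        rw [abs_of_nonneg (by (clear * - hη hm; positivity))]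
        have := hL x
        have := min_le_left 1 (η * m / (2 * L + 1))
        (clear hc f hf hg hcs cf hgcs M0 hM0 M hM hM1 hL1 bInt bIntE key hε hε0 i1; gcongr)
    · exact (i1.add (integrable_const _)).div_const _
    · simp only
      have h2 := hL x
      have h3 : ε ≤ 1 := min_le_left _ _
      have h4 : 0 ≤ ‖g x‖ := norm_nonneg _
      gcongr
      (refine le_of_not_gt fun hng_ => ?_; linarith only [mul_pos hε0 (sub_pos.2 hng_), mul_nonneg (sub_nonneg.2 h3) (le_of_lt (sub_pos.2 hng_)), mul_nonneg (le_of_lt hε0) (sub_nonneg.2 h2), mul_nonneg (le_of_lt hε0) (sub_nonneg.2 h3)])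
  have h5 : ∫ x, (‖g x‖ ^ 2 + ε * (2 * L + 1)) / (2 * m) ∂(gibbs U)
      = (∫ x, ‖g x‖ ^ 2 ∂(gibbs U)) / (2 * m) + ε * (2 * L + 1) / (2 * m) := by
    rw [integral_div, integral_add i1 (integrable_const _)]
    simp only [integral_const, probReal_univ, smul_eq_mul, one_mul, add_div]
  have h6 : ε * (2 * L + 1) / m ≤ η := by
    have h7 : ε ≤ η * m / (2 * L + 1) := min_le_right _ _
    rw [le_div_iff₀ (by (clear * -; positivity))] at h7
    rw [div_le_iff₀ hm]
    exact h7
  calc 2 * ∫ x, (‖g x‖ + ε) ^ 2 / (2 * m) ∂(gibbs U)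
      ≤ 2 * ((∫ x, ‖g x‖ ^ 2 ∂(gibbs U)) / (2 * m) + ε * (2 * L + 1) / (2 * m)) := by
        rw [← h5]; gcongr
    _ = 1 / m * (∫ x, ‖g x‖ ^ 2 ∂(gibbs U)) + ε * (2 * L + 1) / m := by (clear hc f hf hg hcs cf hgcs M0 hM0 hL0 M hM hL hM1 bInt bIntE key hε i1 h1 h5 h6; field_simp)
    _ ≤ _ := by (clear hc f hf hg hcs cf hgcs M0 hM0 hL0 M hM hL hM1 hL1 bInt bIntE key hη hε hε0 i1 h1 h5; gcongr)

end Vale.Agent.P347
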