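import Vale.Agent.P347.Gibbs
import Vale.Agent.P347.PoinA

/-! Task B (P347): Poincare inequality and Gaussian concentration from Prekopa-Leindler. -/

open MeasureTheory Filter Module
open scoped ENNReal NNReal

namespace Vale.Agent.P347

variable {E : Type*} [NormedAddCommGroup E] [InnerProductSpace ℝ E] [FiniteDimensional ℝ E]
  [MeasurableSpace E] [BorelSpace E]

/-- Midpoint strong convexity with parameter `m`. -/
def MidSC (m : ℝ) (U : E → ℝ) : Prop :=
  ∀ x y, U ((2 : ℝ)⁻¹ • (x + y)) ≤ (U x + U y) / 2 - m / 8 * ‖x - y‖ ^ 2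

/-- Poincare inequality for `m`-strongly convex potentials. -/
theorem poincare {U : E → ℝ} {m : ℝ} (hm : 0 < m) (hU : Adm U) (hc : MidSC m U)
    {f : E → ℝ} {g : E → E} (hf : ∀ x, HasFDerivAt f (innerSL ℝ (g x)) x) (hg : Continuous g)
    (pf : PG f) (pg : PG g) :
    (∫ x, f x ^ 2 ∂(gibbs U)) - (∫ x, f x ∂(gibbs U)) ^ 2
      ≤ (1 / m) * ∫ x, ‖g x‖ ^ 2 ∂(gibbs U) := by
  have := hU.isProb
  have cf : Continuous f := continuous_iff_continuousAt.2 fun x => (hf x).continuousAt
  -- a smooth cutoff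
  let b : ContDiffBump (0 : E) := ⟨1, 2, one_pos, one_lt_two⟩
  set u : E → ℝ := fun x => b x with hu
  have cu : ContDiff ℝ 1 u := b.contDiff
  have hu1 : ∀ x, |u x| ≤ 1 := fun x => by
    rw [abs_of_nonneg b.nonneg]; exact b.le_one
  have hu0 : u 0 = 1 := b.one_of_mem_closedBall (by simp [b])
  have hucs : HasCompactSupport u := b.hasCompactSupport
  set du : E → E := fun x => (InnerProductSpace.toDual ℝ E).symm (fderiv ℝ u x) with hdu
  have cdu : Continuous du :=
    (InnerProductSpace.toDual ℝ E).symm.continuous.comp (cu.continuous_fderiv one_ne_zero)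
  have hdu' : ∀ x, HasFDerivAt u (innerSL ℝ (du x)) x := fun x => by
    have h1 : innerSL ℝ (du x) = fderiv ℝ u x := by
      ext v
      simp only [hdu, innerSL_apply_apply]
      exact InnerProductSpace.toDual_symm_apply
    rw [h1]
    exact (cu.differentiable one_ne_zero x).hasFDerivAt
  have hducs : HasCompactSupport du := (hucs.fderiv ℝ).comp_left (map_zero _)
  obtain ⟨C0, hC0⟩ := cdu.bounded_above_of_compact_support hducs
  have hC00 : 0 ≤ C0 := (norm_nonneg _).trans (hC0 0)
  -- truncations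
  set r : ℕ → ℝ := fun k => ((k : ℝ) + 1)⁻¹ with hr
  have hr0 : ∀ k, 0 < r k := fun k => by simp only [hr]; positivity
  have hr1 : ∀ k, r k ≤ 1 := fun k => by
    simp only [hr]
    exact inv_le_one_of_one_le₀ (by have : (0:ℝ) ≤ k := Nat.cast_nonneg k; linarith only [])
  have hrlim : Tendsto r atTop (nhds 0) := by
    have := tendsto_one_div_add_atTop_nhds_zero_nat (𝕜 := ℝ)
    simpa [hr, one_div] using this
  set fk : ℕ → E → ℝ := fun k x => u (r k • x) * f x with hfk
  set gk : ℕ → E → E := fun k x => u (r k • x) • g x + (f x * r k) • du (r k • x) with hgk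
  have hder : ∀ k x, HasFDerivAt (fk k) (innerSL ℝ (gk k x)) x := by
    intro k x
    have h1 : HasFDerivAt (fun x : E => u (r k • x))
        ((innerSL ℝ (du (r k • x))).comp (r k • ContinuousLinearMap.id ℝ E)) x :=
      (hdu' (r k • x)).comp x ((hasFDerivAt_id x).const_smul (r k))
    have h2 := h1.mul (hf x)
    refine h2.congr_fderiv ?_
    ext v
    simp [hgk, inner_add_left, inner_smul_left, inner_smul_right]
    ring
  have hcs : ∀ k, HasCompactSupport (fk k) := by
    intro k
    have h1 : HasCompactSupport (fun x : E => u (r k • x)) :=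
      hucs.comp_homeomorph (Homeomorph.smulOfNeZero (r k) (hr0 k).ne')
    exact h1.mul_right
  have cgk : ∀ k, Continuous (gk k) := fun k => by
    have : Continuous u := cu.continuous
    fun_prop
  have key : ∀ k, (∫ x, fk k x ^ 2 ∂(gibbs U)) - (∫ x, fk k x ∂(gibbs U)) ^ 2
      ≤ (1 / m) * ∫ x, ‖gk k x‖ ^ 2 ∂(gibbs U) := fun k =>
    poincare_cs hm hU hc (hder k) (cgk k) (hcs k)
  have cu' : Continuous u := cu.continuous
  have hul : ∀ x, Tendsto (fun k => u (r k • x)) atTop (nhds 1) := fun x => by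
    have h1 : Tendsto (fun k => r k • x) atTop (nhds ((0 : ℝ) • x)) := hrlim.smul_const x
    rw [zero_smul] at h1
    have := (cu'.tendsto 0).comp h1
    rwa [hu0] at this
  have hdul : ∀ x, Tendsto (fun k => du (r k • x)) atTop (nhds (du 0)) := fun x => by
    have h1 : Tendsto (fun k => r k • x) atTop (nhds ((0 : ℝ) • x)) := hrlim.smul_const x
    rw [zero_smul] at h1
    exact (cdu.tendsto 0).comp h1
  have lf : ∀ x, Tendsto (fun k => fk k x) atTop (nhds (f x)) := fun x => by
    have := (hul x).mul_const (f x)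
    simpa [hfk] using this
  have lg : ∀ x, Tendsto (fun k => gk k x) atTop (nhds (g x)) := fun x => by
    have h1 := (hul x).smul_const (g x)
    have h2 := ((hrlim.const_mul (f x)).smul (hdul x))
    have := h1.add h2
    simpa [hgk] using this
  have t1 : Tendsto (fun k => ∫ x, fk k x ^ 2 ∂(gibbs U)) atTop
      (nhds (∫ x, f x ^ 2 ∂(gibbs U))) := by
    refine tendsto_integral_of_dominated_convergence (fun x => f x ^ 2)
      (fun k => by simp only [hfk]; fun_prop)
      (hU.integrable (pf.pow 2) (by fun_prop)) (fun k => Eventually.of_forall fun x => ?_)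
      (Eventually.of_forall fun x => (lf x).pow 2)
    simp only [hfk]
    rw [Real.norm_of_nonneg (sq_nonneg _), mul_pow]
    have h1 : u (r k • x) ^ 2 ≤ 1 := by
      rw [← sq_abs]; exact pow_le_one₀ (abs_nonneg _) (hu1 _)
    linarith only [mul_nonneg (sub_nonneg.2 h1) (sq_nonneg (f x))]
  have t2 : Tendsto (fun k => ∫ x, fk k x ∂(gibbs U)) atTop
      (nhds (∫ x, f x ∂(gibbs U))) := by
    refine tendsto_integral_of_dominated_convergence (fun x => ‖f x‖)
      (fun k => by simp only [hfk]; fun_prop)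
      (hU.integrable pf.norm (by fun_prop)) (fun k => Eventually.of_forall fun x => ?_)
      (Eventually.of_forall fun x => lf x)
    simp only [hfk]
    rw [norm_mul]
    calc ‖u (r k • x)‖ * ‖f x‖ ≤ 1 * ‖f x‖ := by gcongr; exact hu1 _
      _ = ‖f x‖ := one_mul _
  have t3 : Tendsto (fun k => ∫ x, ‖gk k x‖ ^ 2 ∂(gibbs U)) atTop
      (nhds (∫ x, ‖g x‖ ^ 2 ∂(gibbs U))) := by
    refine tendsto_integral_of_dominated_convergence (fun x => (‖g x‖ + ‖f x‖ * C0) ^ 2)
      (fun k => by have := cgk k; fun_prop)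
      (hU.integrable ((pg.norm.add (pf.norm.mul (PG.const C0))).pow 2) (by fun_prop))
      (fun k => Eventually.of_forall fun x => ?_)
      (Eventually.of_forall fun x => ((lg x).norm).pow 2)
    rw [Real.norm_of_nonneg (by positivity)]
    refine pow_le_pow_left₀ (norm_nonneg _) ?_ 2
    simp only [hgk]
    refine (norm_add_le _ _).trans (add_le_add ?_ ?_)
    · rw [norm_smul]
      calc ‖u (r k • x)‖ * ‖g x‖ ≤ 1 * ‖g x‖ := by gcongr; exact hu1 _
        _ = ‖g x‖ := one_mul _
    · rw [norm_smul, norm_mul, Real.norm_of_nonneg (hr0 k).le]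
      calc ‖f x‖ * r k * ‖du (r k • x)‖ ≤ ‖f x‖ * 1 * C0 := by
            gcongr
            · exact hr1 k
            · exact hC0 _
        _ = ‖f x‖ * C0 := by ring
  exact le_of_tendsto_of_tendsto' (t1.sub (t2.pow 2)) (t3.const_mul _) key

/-- Exponential concentration of Lipschitz functions under a strongly log-concave law. -/
theorem exp_lip {U : E → ℝ} {m : ℝ} (hm : 0 < m) (hU : Adm U) (hc : MidSC m U)
    {f : E → ℝ} {L : ℝ} (hf : ∀ x y, |f x - f y| ≤ L * ‖x - y‖) :
    ∫ x, Real.exp (f x - ∫ y, f y ∂(gibbs U)) ∂(gibbs U) ≤ Real.exp (L ^ 2 / m) := by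
  have := hU.isProb
  have hL' : ∀ x y, |f x - f y| ≤ |L| * ‖x - y‖ := fun x y =>
    (hf x y).trans (by gcongr; exact le_abs_self L)
  have cf : Continuous f := by
    have : LipschitzWith (Real.toNNReal |L|) f := LipschitzWith.of_dist_le_mul fun x y => by
      rw [Real.coe_toNNReal _ (abs_nonneg _), Real.dist_eq, dist_eq_norm]
      exact hL' x y
    exact this.continuous
  have pf : PG f := PG.of_lip (L := |L|) fun x y => hL' x y
  obtain ⟨a, ha, b, hab⟩ := hU.low
  have hfl : ∀ x, |f x| ≤ a / 2 * ‖x‖ ^ 2 + (|f 0| + L ^ 2 / (2 * a)) := fun x => by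
    have h1 := hL' x 0
    rw [sub_zero] at h1
    have h2 : |f x| ≤ |f 0| + |L| * ‖x‖ := by
      calc |f x| = |f 0 + (f x - f 0)| := by congr 1; ring
        _ ≤ |f 0| + |f x - f 0| := abs_add_le _ _
        _ ≤ _ := by linarith only [h1]
    have h3 : |L| * ‖x‖ ≤ a / 2 * ‖x‖ ^ 2 + L ^ 2 / (2 * a) := by
      have h4 : L ^ 2 / (2 * a) * (2 * a) = |L| ^ 2 := by rw [sq_abs]; field_simp
      have h5 := sq_nonneg (a * ‖x‖ - |L|)
      (refine le_of_not_gt fun hng_ => ?_; linarith only [mul_pos ha (sub_pos.2 hng_), h4, h5])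
    linarith only [h3, h2]
  have cU := hU.cont
  have mkInt : ∀ φ : E → ℝ, Continuous φ → (∀ x, φ x ≤ a / 2 * ‖x‖ ^ 2 + (|f 0| + L ^ 2 / (2 * a)))
      → Integrable (fun x => Real.exp (φ x - U x)) (volume : Measure E) := fun φ cφ hφ => by
    have hA : Adm (fun x => U x - φ x) := ⟨by fun_prop, a / 2, by positivity,
      b + (|f 0| + L ^ 2 / (2 * a)), fun x => by have := hφ x; have := hab x; linarith⟩
    have := hA.integrable_exp
    simpa [neg_sub] using this
  have i1 := mkInt f cf fun x => (le_abs_self _).trans (hfl x)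
  have i2 := mkInt (fun x => -f x) (by fun_prop) fun x => (neg_le_abs _).trans (hfl x)
  have i3 : Integrable (fun x => Real.exp (L ^ 2 / (2 * m) - U x)) (volume : Measure E) := by
    have := hU.integrable_exp.const_mul (Real.exp (L ^ 2 / (2 * m)))
    refine this.congr (Eventually.of_forall fun x => ?_)
    simp only
    rw [← Real.exp_add, sub_eq_add_neg]
  have hpl := gibbs_pl (m := m) hU hc (φ := f) (ψ := fun _ => L ^ 2 / (2 * m)) cf
    continuous_const i1 i2 i3 (fun x y => by
      have h1 := (le_abs_self _).trans (hf x y)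
      have h2 : 2 * (L ^ 2 / (2 * m)) = L ^ 2 / m := by field_simp
      rw [h2, le_div_iff₀ hm]
      have h3 := sq_nonneg (m / 2 * ‖x - y‖ - L)
      linarith only [mul_nonneg (le_of_lt hm) (sub_nonneg.2 h1), h3])
  have h1 : (∫ x, Real.exp (L ^ 2 / (2 * m)) ∂(gibbs U)) ^ 2 = Real.exp (L ^ 2 / m) := by
    rw [integral_const, probReal_univ, one_smul, ← Real.exp_nat_mul]
    congr 1
    push_cast
    field_simp
  rw [h1] at hpl
  have hint : ∀ φ : E → ℝ, Continuous φ → (∀ x, φ x ≤ a / 2 * ‖x‖ ^ 2 + (|f 0| + L ^ 2 / (2 * a)))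
      → Integrable (fun x => Real.exp (φ x)) (gibbs U) := fun φ cφ hφ =>
    Adm.integrable_exp_mul ha cU hab cφ (by linarith only [ha] : a / 2 < a) hφ
  have j2 := hint (fun x => -f x) (by fun_prop) fun x => (neg_le_abs _).trans (hfl x)
  have h2 : Real.exp (-∫ x, f x ∂(gibbs U)) ≤ ∫ x, Real.exp (-f x) ∂(gibbs U) := by
    have hi : Integrable (fun x => -f x) (gibbs U) := (hU.integrable pf (by fun_prop)).neg
    have := ConvexOn.map_integral_le (μ := gibbs U) convexOn_exp Real.continuous_exp.continuousOn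
      isClosed_univ (f := fun x => -f x) (Eventually.of_forall fun x => Set.mem_univ _) hi j2
    rwa [integral_neg] at this
  have h3 : ∫ x, Real.exp (f x - ∫ y, f y ∂(gibbs U)) ∂(gibbs U)
      = (∫ x, Real.exp (f x) ∂(gibbs U)) * Real.exp (-∫ x, f x ∂(gibbs U)) := by
    rw [← integral_mul_const]
    refine integral_congr_ae (Eventually.of_forall fun x => ?_)
    simp only
    rw [← Real.exp_add, sub_eq_add_neg]
  rw [h3]
  calc _ ≤ (∫ x, Real.exp (f x) ∂(gibbs U)) * ∫ x, Real.exp (-f x) ∂(gibbs U) := by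
        gcongr
    _ ≤ _ := hpl

/-- Prekopa: the marginal potential of a jointly (midpoint) convex potential is convex; here for
the Gaussian smoothing. -/
theorem Wp_midconvex {V : E → ℝ} (hV : Adm V) (hc : MidSC 0 V) {s : ℝ} (hs : 0 < s) :
    MidSC 0 (Wp V s) := by
  have hadm : ∀ y, Adm (post V s y) := fun y => by
    obtain ⟨a, ha, b, hab⟩ := hV.low
    have cV := hV.cont
    refine ⟨by unfold post; fun_prop, a, ha, b, fun x => ?_⟩
    unfold post
    have : 0 ≤ ‖x - y‖ ^ 2 / (2 * s) := by positivity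
    have := hab x
    linarith
  intro y y'
  have h1 := pl_exp_real (A := fun x => -post V s y x) (B := fun x => -post V s y' x)
    (C := fun x => -post V s ((2 : ℝ)⁻¹ • (y + y')) x) (hadm y).cont.neg (hadm y').cont.neg
    (hadm _).cont.neg (hadm y).integrable_exp (hadm y').integrable_exp (hadm _).integrable_exp
    (fun x x' => by
      have h2 := hc x x'
      simp only [zero_div, zero_mul, sub_zero] at h2
      have h3 : ‖(2 : ℝ)⁻¹ • (x + x') - (2 : ℝ)⁻¹ • (y + y')‖ ^ 2
          ≤ (‖x - y‖ ^ 2 + ‖x' - y'‖ ^ 2) / 2 := by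
        have h4 : (2 : ℝ)⁻¹ • (x + x') - (2 : ℝ)⁻¹ • (y + y')
            = (2 : ℝ)⁻¹ • ((x - y) + (x' - y')) := by module
        rw [h4, norm_smul, mul_pow]
        have h5 := norm_add_le (x - y) (x' - y')
        have h6 : ‖(x - y) + (x' - y')‖ ^ 2 ≤ (‖x - y‖ + ‖x' - y'‖) ^ 2 :=
          pow_le_pow_left₀ (norm_nonneg _) h5 2
        have h7 := sq_nonneg (‖x - y‖ - ‖x' - y'‖)
        norm_num
        linarith only [h6, h7]
      unfold post
      have h8 : ‖(2 : ℝ)⁻¹ • (x + x') - (2 : ℝ)⁻¹ • (y + y')‖ ^ 2 / (2 * s)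
          ≤ (‖x - y‖ ^ 2 / (2 * s) + ‖x' - y'‖ ^ 2 / (2 * s)) / 2 := by
        rw [← add_div, div_div, div_le_div_iff₀ (by positivity) (by positivity)]
        linarith only [mul_nonneg (le_of_lt hs) (sub_nonneg.2 h3)]
      linarith only [h8, h2])
  have z1 := (hadm y).integral_exp_pos
  have z2 := (hadm y').integral_exp_pos
  have z3 := (hadm ((2 : ℝ)⁻¹ • (y + y'))).integral_exp_pos
  have h2 := Real.log_le_log (by positivity) h1
  rw [Real.log_mul z1.ne' z2.ne', Real.log_pow] at h2
  unfold Wp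
  push_cast at h2
  simp only [zero_div, zero_mul, sub_zero]
  linarith only [h2]

end Vale.Agent.P347
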