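import Vale.Agent.P347.MathlibUsed

open MeasureTheory Filter
open scoped RealInnerProductSpace

namespace Vale.Agent.P347

/-- Euclidean space of dimension `d`. -/
abbrev Eu (d : ℕ) : Type := EuclideanSpace ℝ (Fin d)

/-- Potentials on a Euclidean space which are `C^2`, with `V 0 = 0`, `grad V 0 = 0`, and Hessian
between `I` and `2 I`. -/
def PotOn (E : Type) [NormedAddCommGroup E] [InnerProductSpace ℝ E] [CompleteSpace E] :
    Set (E → ℝ) :=
  {V | ContDiff ℝ 2 V ∧ V 0 = 0 ∧ gradient V 0 = 0 ∧
    ∀ x v : E, ‖v‖ ^ 2 ≤ fderiv ℝ (fderiv ℝ V) x v v ∧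
      fderiv ℝ (fderiv ℝ V) x v v ≤ 2 * ‖v‖ ^ 2}

/-- The class of potentials in dimension `d`. -/
def PotClass (d : ℕ) : Set (Eu d → ℝ) := PotOn (Eu d)

/-- The probability measure with density proportional to `exp (-V)` on a measure space. -/
noncomputable def gibbsOn {E : Type} [MeasureSpace E] (V : E → ℝ) : Measure E :=
  (∫⁻ x, ENNReal.ofReal (Real.exp (-V x)))⁻¹ •
    (volume : Measure E).withDensity (fun x => ENNReal.ofReal (Real.exp (-V x)))

/-- The Gibbs law with density proportional to `exp (-V)`. -/
noncomputable def target {d : ℕ} (V : Eu d → ℝ) : Measure (Eu d) := gibbsOn V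

/-- The answer of the exact first-order oracle for `V` at `x`. -/
noncomputable def oracle {d : ℕ} (V : Eu d → ℝ) (x : Eu d) : ℝ × Eu d := (V x, gradient V x)

/-- A randomized adaptive algorithm making `q` first-order queries in dimension `d`. The random
seed `ω` has law `P` on a standard Borel space; the `k`-th query point is a measurable function
of the seed and of the previous answers, the output is a measurable function of the seed and of
all answers. -/
structure Algo (d q : ℕ) where
  Ω : Type
  mΩ : MeasurableSpace Ω
  sΩ : StandardBorelSpace Ω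
  P : Measure Ω
  prob : IsProbabilityMeasure P
  query : (k : Fin q) → Ω × (Fin k → ℝ × Eu d) → Eu d
  query_meas : ∀ k, Measurable (query k)
  out : Ω × (Fin q → ℝ × Eu d) → Eu d
  out_meas : Measurable out

/-- The first `k` answers received by the algorithm when the potential is `V`. -/
noncomputable def Algo.answers {d q : ℕ} (A : Algo d q) (V : Eu d → ℝ) (ω : A.Ω) :
    (k : ℕ) → k ≤ q → (Fin k → ℝ × Eu d)
  | 0, _ => Fin.elim0
  | k + 1, hk =>
      Fin.snoc (α := fun _ => ℝ × Eu d) (A.answers V ω k (Nat.le_of_succ_le hk))
        (oracle V (A.query ⟨k, hk⟩ (ω, A.answers V ω k (Nat.le_of_succ_le hk))))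

/-- The law of the output of the algorithm when the potential is `V`. -/
noncomputable def Algo.law {d q : ℕ} (A : Algo d q) (V : Eu d → ℝ) : Measure (Eu d) :=
  letI := A.mΩ
  A.P.map (fun ω => A.out (ω, A.answers V ω q le_rfl))

/-- `A` samples from every target of the class within total variation `1/10`. -/
def Algo.Good {d q : ℕ} (A : Algo d q) : Prop :=
  ∀ V ∈ PotClass d, ∀ B : Set (Eu d), MeasurableSet B →
    |(A.law V).real B - (target V).real B| ≤ 1 / 10

/-- The query complexity: the least `q` for which a good algorithm with `q` queries exists. -/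
noncomputable def Q (d : ℕ) : ℕ := sInf {q | ∃ A : Algo d q, A.Good}

end Vale.Agent.P347
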