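import Vale.Agent.P347.MathlibUsed
attribute [-instance] ProperSMul.toContinuousSMul IsTopologicalTorsor.toContinuousSMul IdemSemiring.toCanonicallyOrderedAdd IdemSemiring.toMulLeftMono IdemSemiring.toMulRightMono AddQuantale.instAddLeftMono AddQuantale.instAddRightMono Quantale.instMulLeftMono Quantale.instMulRightMono FiniteDimensional.rclike_to_real IsScalarTower.complexToReal FiniteDimensional.complexToReal

/-! Core definitions for P347 (no theorems with content here). -/

open MeasureTheory Filter Module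
open scoped ENNReal NNReal

namespace Vale.Agent.P347

variable {E : Type*} [NormedAddCommGroup E] [InnerProductSpace ℝ E] [FiniteDimensional ℝ E]
  [MeasurableSpace E] [BorelSpace E]

/-- Gibbs probability measure with density proportional to `exp (-U)`. -/
noncomputable def gibbs (U : E → ℝ) : Measure E := (volume : Measure E).tilted (fun x => -U x)

/-- Standard Gaussian measure on `E` (as a Gibbs measure). -/
noncomputable def gam (E : Type*) [NormedAddCommGroup E] [InnerProductSpace ℝ E]
    [FiniteDimensional ℝ E] [MeasurableSpace E] [BorelSpace E] : Measure E :=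
  gibbs (fun x : E => ‖x‖ ^ 2 / 2)

/-- Admissible potentials: continuous with quadratic lower growth. -/
structure Adm (U : E → ℝ) : Prop where
  cont : Continuous U
  low : ∃ a > 0, ∃ b, ∀ x, a * ‖x‖ ^ 2 - b ≤ U x

/-- Polynomially bounded functions. -/
def PG {F : Type*} [NormedAddCommGroup F] (f : E → F) : Prop :=
  ∃ (C : ℝ) (k : ℕ), ∀ x, ‖f x‖ ≤ C * (1 + ‖x‖) ^ k

/-- Convex potential `W` with gradient field `F` which is `2`-Lipschitz. -/
structure CPot (W : E → ℝ) (F : E → E) : Prop where
  grad : ∀ x, HasFDerivAt W (innerSL ℝ (F x)) x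
  mono : ∀ x y, 0 ≤ inner ℝ (F x - F y) (x - y)
  lip : ∀ x y, ‖F x - F y‖ ≤ 2 * ‖x - y‖

/-- The potentials of the problem: gradient `G`, Hessian `H` with `I ≤ H ≤ 2 I`. -/
structure Pot (V : E → ℝ) (G : E → E) (H : E → E →L[ℝ] E) : Prop where
  grad : ∀ x, HasFDerivAt V (innerSL ℝ (G x)) x
  hess : ∀ x, HasFDerivAt G (H x) x
  contH : Continuous H
  symm : ∀ x u v, inner ℝ (H x u) (v) = inner ℝ (u) (H x v)
  lo : ∀ x v, ‖v‖ ^ 2 ≤ inner ℝ (H x v) (v)
  hi : ∀ x v, inner ℝ (H x v) (v) ≤ 2 * ‖v‖ ^ 2
  zero : V 0 = 0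
  gzero : G 0 = 0

/-- The potential of the posterior law `ρ_y` of `X` given `X + √s Z = y`. -/
noncomputable def post (V : E → ℝ) (s : ℝ) (y : E) : E → ℝ :=
  fun x => V x + ‖x - y‖ ^ 2 / (2 * s)

/-- The smoothed potential `W = - log (exp (-V) * Gaussian)` (unnormalised). -/
noncomputable def Wp (V : E → ℝ) (s : ℝ) (y : E) : ℝ :=
  -Real.log (∫ x, Real.exp (-post V s y x))

/-- The gradient of the smoothed potential: posterior mean of `G`. -/
noncomputable def Fp (V : E → ℝ) (G : E → E) (s : ℝ) (y : E) : E :=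
  ∫ x, G x ∂(gibbs (post V s y))

/-- Evaluation point of the gradient estimator. -/
noncomputable def ev (G : E → E) (s : ℝ) (y z : E) : E := y - s • G y + √s • z

/-- Mean of the gradient estimator. -/
noncomputable def Gb (G : E → E) (s : ℝ) (y : E) : E := ∫ z, G (ev G s y z) ∂(gam E)

end Vale.Agent.P347
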