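import Vale.Agent.P347.Core

/-! Task A (P347): basic calculus of Gibbs measures. -/

open MeasureTheory Filter Module
open scoped ENNReal NNReal

namespace Vale.Agent.P347

variable {E : Type*} [NormedAddCommGroup E] [InnerProductSpace ℝ E] [FiniteDimensional ℝ E]
  [MeasurableSpace E] [BorelSpace E]
variable {F : Type*} [NormedAddCommGroup F] [NormedSpace ℝ F]

/-! ### Polynomial growth -/

section pg

omit [FiniteDimensional ℝ E] [MeasurableSpace E] [BorelSpace E]

theorem one_le_one_add_norm (x : E) : 1 ≤ 1 + ‖x‖ := by linarith [norm_nonneg x]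

omit [NormedSpace ℝ F] in
theorem PG.nonneg_bound {f : E → F} (hf : PG f) :
    ∃ (C : ℝ) (k : ℕ), 0 ≤ C ∧ ∀ x, ‖f x‖ ≤ C * (1 + ‖x‖) ^ k := by
  obtain ⟨C, k, h⟩ := hf
  refine ⟨|C|, k, abs_nonneg _, fun x => (h x).trans ?_⟩
  have := one_le_one_add_norm x
  gcongr
  exact le_abs_self C

omit [NormedSpace ℝ F] in
theorem PG.const (c : F) : PG (fun _ : E => c) := ⟨‖c‖, 0, fun x => by simp⟩

theorem PG.id : PG (fun x : E => x) := ⟨1, 1, fun x => by simp⟩

omit [NormedSpace ℝ F] in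
theorem PG.add {f g : E → F} (hf : PG f) (hg : PG g) : PG (fun x => f x + g x) := by
  obtain ⟨C, k, hC, h⟩ := hf.nonneg_bound
  obtain ⟨C', k', hC', h'⟩ := hg.nonneg_bound
  refine ⟨C + C', k + k', fun x => (norm_add_le _ _).trans ?_⟩
  have h1 := one_le_one_add_norm x
  have h2 : (1 + ‖x‖) ^ k ≤ (1 + ‖x‖) ^ (k + k') := pow_le_pow_right₀ h1 (by omega)
  have h3 : (1 + ‖x‖) ^ k' ≤ (1 + ‖x‖) ^ (k + k') := pow_le_pow_right₀ h1 (by omega)
  have h4 := mul_le_mul_of_nonneg_left h2 hC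
  have h5 := mul_le_mul_of_nonneg_left h3 hC'
  linarith [h x, h' x]

omit [NormedSpace ℝ F] in
theorem PG.neg {f : E → F} (hf : PG f) : PG (fun x => -f x) := by
  obtain ⟨C, k, h⟩ := hf
  exact ⟨C, k, fun x => by rw [norm_neg]; exact h x⟩

omit [NormedSpace ℝ F] in
theorem PG.sub {f g : E → F} (hf : PG f) (hg : PG g) : PG (fun x => f x - g x) := by
  simpa only [sub_eq_add_neg] using hf.add hg.neg

theorem PG.smul {f : E → ℝ} {g : E → F} (hf : PG f) (hg : PG g) :
    PG (fun x => f x • g x) := by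
  obtain ⟨C, k, hC, h⟩ := hf.nonneg_bound
  obtain ⟨C', k', hC', h'⟩ := hg.nonneg_bound
  refine ⟨C * C', k + k', fun x => ?_⟩
  have h1 := one_le_one_add_norm x
  rw [norm_smul, pow_add]
  calc ‖f x‖ * ‖g x‖ ≤ (C * (1 + ‖x‖) ^ k) * (C' * (1 + ‖x‖) ^ k') :=
        mul_le_mul (h x) (h' x) (norm_nonneg _) (by positivity)
    _ = _ := by ring

theorem PG.mul {f g : E → ℝ} (hf : PG f) (hg : PG g) : PG (fun x => f x * g x) := hf.smul hg

omit [NormedSpace ℝ F] in
theorem PG.norm {f : E → F} (hf : PG f) : PG (fun x => ‖f x‖) := by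
  obtain ⟨C, k, h⟩ := hf
  exact ⟨C, k, fun x => by rw [norm_norm]; exact h x⟩

omit [NormedSpace ℝ F] in
theorem PG.of_le {F' : Type*} [NormedAddCommGroup F'] {f : E → F} {g : E → F'} (hf : PG f)
    (h : ∀ x, ‖g x‖ ≤ ‖f x‖) : PG g := by
  obtain ⟨C, k, h'⟩ := hf
  exact ⟨C, k, fun x => (h x).trans (h' x)⟩

theorem PG.inner {f g : E → E} (hf : PG f) (hg : PG g) :
    PG (fun x => (inner ℝ (f x) (g x) : ℝ)) := by
  refine (hf.norm.mul hg.norm).of_le fun x => ?_
  rw [norm_mul, norm_norm, norm_norm]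
  exact norm_inner_le_norm _ _

theorem PG.pow {f : E → ℝ} (hf : PG f) (k : ℕ) : PG (fun x => f x ^ k) := by
  induction k with
  | zero => simpa using PG.const (E := E) (1 : ℝ)
  | succ k ih => simpa only [pow_succ] using ih.mul hf

omit [NormedSpace ℝ F] in
/-- Lipschitz maps have polynomial growth. -/
theorem PG.of_lip {f : E → F} {L : ℝ} (h : ∀ x y, ‖f x - f y‖ ≤ L * ‖x - y‖) : PG f := by
  refine ⟨‖f 0‖ + |L|, 1, fun x => ?_⟩
  have h1 := h x 0
  rw [sub_zero] at h1
  have h2 : ‖f x‖ ≤ ‖f x - f 0‖ + ‖f 0‖ := by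
    have := norm_add_le (f x - f 0) (f 0)
    rwa [sub_add_cancel] at this
  have h3 : L * ‖x‖ ≤ |L| * ‖x‖ := mul_le_mul_of_nonneg_right (le_abs_self L) (norm_nonneg _)
  have h4 := mul_nonneg (norm_nonneg (f 0)) (norm_nonneg x)
  have h5 := abs_nonneg L
  rw [pow_one]
  linarith

end pg

/-! ### Integrability -/

theorem integrable_exp_neg_sq {b : ℝ} (hb : 0 < b) :
    Integrable (fun v : E => Real.exp (-(b * ‖v‖ ^ 2))) := by
  have h := GaussianFourier.integrable_cexp_neg_mul_sq_norm_add (V := E) (b := (b : ℂ))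
    (by simpa using hb) 0 0
  have h2 := h.norm
  refine h2.congr (Eventually.of_forall fun v => ?_)
  simp only [Complex.norm_exp]
  congr 1
  simp [← Complex.ofReal_pow]

/-- The elementary bound `(1+r)^k exp(-a r^2) ≤ C exp(-(a/2) r^2)`. -/
theorem pow_mul_exp_le {a : ℝ} (ha : 0 < a) (k : ℕ) {r : ℝ} (hr : 0 ≤ r) :
    (1 + r) ^ k * Real.exp (-(a * r ^ 2)) ≤
      (k.factorial * Real.exp (1 + 1 / (2 * a))) * Real.exp (-(a / 2 * r ^ 2)) := by
  have h1 : (1 + r) ^ k ≤ k.factorial * Real.exp (1 + r) := by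
    have h2 := Real.pow_div_factorial_le_exp (1 + r) (by linarith) k
    rw [div_le_iff₀ (by positivity)] at h2
    linarith
  have h3 : r ≤ a / 2 * r ^ 2 + 1 / (2 * a) := by
    have h4 : 0 ≤ (a * r - 1) ^ 2 / (2 * a) := by positivity
    have h5 : (a * r - 1) ^ 2 / (2 * a) = a / 2 * r ^ 2 - r + 1 / (2 * a) := by
      field_simp
      ring
    linarith
  calc (1 + r) ^ k * Real.exp (-(a * r ^ 2))
      ≤ (k.factorial * Real.exp (1 + r)) * Real.exp (-(a * r ^ 2)) :=
        mul_le_mul_of_nonneg_right h1 (Real.exp_pos _).le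
    _ = k.factorial * Real.exp (1 + r + -(a * r ^ 2)) := by rw [mul_assoc, ← Real.exp_add]
    _ ≤ k.factorial * Real.exp ((1 + 1 / (2 * a)) + -(a / 2 * r ^ 2)) := by
        apply mul_le_mul_of_nonneg_left _ (by positivity)
        apply Real.exp_le_exp.2
        linarith
    _ = _ := by rw [Real.exp_add, mul_assoc]

theorem integrable_pow_mul_exp {a : ℝ} (ha : 0 < a) (C : ℝ) (k : ℕ) (b : ℝ) :
    Integrable (fun x : E => C * (1 + ‖x‖) ^ k * Real.exp (b - a * ‖x‖ ^ 2)) := by
  have h1 : Integrable (fun x : E => (1 + ‖x‖) ^ k * Real.exp (-(a * ‖x‖ ^ 2))) := by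
    refine ((integrable_exp_neg_sq (E := E) (half_pos ha)).const_mul
      (k.factorial * Real.exp (1 + 1 / (2 * a)))).mono' ?_ (Eventually.of_forall fun x => ?_)
    · exact Continuous.aestronglyMeasurable (by fun_prop)
    · rw [Real.norm_eq_abs, abs_of_nonneg (by positivity)]
      exact pow_mul_exp_le ha k (norm_nonneg x)
  refine (h1.const_mul (C * Real.exp b)).congr (Eventually.of_forall fun x => ?_)
  simp only
  rw [sub_eq_add_neg, Real.exp_add]
  ring

theorem Adm.integrable_exp {U : E → ℝ} (hU : Adm U) :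
    Integrable (fun x => Real.exp (-U x)) (volume : Measure E) := by
  obtain ⟨a, ha, b, hab⟩ := hU.low
  have hc := hU.cont
  refine (integrable_pow_mul_exp (E := E) ha 1 0 b).mono'
    (Real.continuous_exp.comp hc.neg).aestronglyMeasurable (Eventually.of_forall fun x => ?_)
  rw [Real.norm_eq_abs, abs_of_pos (Real.exp_pos _), pow_zero, mul_one, one_mul]
  apply Real.exp_le_exp.2
  linarith [hab x]

theorem Adm.integral_exp_pos {U : E → ℝ} (hU : Adm U) :
    0 < ∫ x, Real.exp (-U x) := MeasureTheory.integral_exp_pos hU.integrable_exp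

theorem Adm.isProb {U : E → ℝ} (hU : Adm U) : IsProbabilityMeasure (gibbs U) :=
  isProbabilityMeasure_tilted hU.integrable_exp

theorem Adm.integrable {U : E → ℝ} (hU : Adm U) {f : E → F} (hf : PG f)
    (hm : AEStronglyMeasurable f volume) : Integrable f (gibbs U) := by
  obtain ⟨a, ha, b, hab⟩ := hU.low
  obtain ⟨C, k, hC, hCk⟩ := hf.nonneg_bound
  have hc := hU.cont
  unfold gibbs
  rw [integrable_tilted_iff hU.integrable_exp]
  refine (integrable_pow_mul_exp (E := E) ha C k b).mono'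
    ((Real.continuous_exp.comp hc.neg).aestronglyMeasurable.smul hm)
    (Eventually.of_forall fun x => ?_)
  rw [norm_smul, Real.norm_eq_abs, abs_of_pos (Real.exp_pos _), mul_comm]
  apply mul_le_mul (hCk x) _ (Real.exp_pos _).le (by positivity)
  apply Real.exp_le_exp.2
  linarith [hab x]

/-- Exponential integrability with a small quadratic exponent. -/
theorem Adm.integrable_exp_mul {U : E → ℝ} {a b : ℝ} (ha : 0 < a) (hc : Continuous U)
    (hlow : ∀ x, a * ‖x‖ ^ 2 - b ≤ U x) {f : E → ℝ} (hf : Continuous f) {c C : ℝ} (hca : c < a)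
    (hfc : ∀ x, f x ≤ c * ‖x‖ ^ 2 + C) :
    Integrable (fun x => Real.exp (f x)) (gibbs U) := by
  have hU : Adm U := ⟨hc, a, ha, b, hlow⟩
  unfold gibbs
  rw [integrable_tilted_iff hU.integrable_exp]
  refine (integrable_pow_mul_exp (E := E) (sub_pos.2 hca) 1 0 (b + C)).mono'
    ((Real.continuous_exp.comp hc.neg).smul (Real.continuous_exp.comp hf)).aestronglyMeasurable
    (Eventually.of_forall fun x => ?_)
  rw [smul_eq_mul, ← Real.exp_add, Real.norm_eq_abs, abs_of_pos (Real.exp_pos _), pow_zero,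
    mul_one, one_mul]
  apply Real.exp_le_exp.2
  have h1 := hlow x
  have h2 := hfc x
  nlinarith

theorem gibbs_integral {U : E → ℝ} (f : E → F) :
    ∫ x, f x ∂(gibbs U) = (∫ x, Real.exp (-U x))⁻¹ • ∫ x, Real.exp (-U x) • f x := by
  unfold gibbs
  rw [integral_tilted, ← integral_smul]
  refine integral_congr_ae (Eventually.of_forall fun x => ?_)
  simp only
  rw [smul_smul, div_eq_inv_mul]

/-- Gibbs measures do not see additive constants. -/
theorem gibbs_add_const (U : E → ℝ) (c : ℝ) : gibbs (fun x => U x + c) = gibbs U := by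
  unfold gibbs Measure.tilted
  congr 1
  funext x
  have h1 : ∀ x, Real.exp (-(U x + c)) = Real.exp (-U x) * Real.exp (-c) := fun x => by
    rw [← Real.exp_add]; congr 1; ring
  simp_rw [h1]
  rw [integral_mul_const, mul_div_mul_right _ _ (Real.exp_pos _).ne']

/-- Integration by parts in direction `v`. -/
theorem gibbs_ibp {U : E → ℝ} (hU : Adm U) {g : E → E}
    (hg : ∀ x, HasFDerivAt U (innerSL ℝ (g x)) x) (hgc : Continuous g) (hgp : PG g)
    {f : E → ℝ} {f' : E → E} (hf : ∀ x, HasFDerivAt f (innerSL ℝ (f' x)) x)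
    (hfc : Continuous f') (hfp : PG f) (hfp' : PG f') (v : E) :
    ∫ x, (inner ℝ (f' x) v : ℝ) ∂(gibbs U) = ∫ x, f x * inner ℝ (g x) v ∂(gibbs U) := by
  have hfcont : Continuous f := continuous_iff_continuousAt.2 fun x => (hf x).continuousAt
  have hexp : ∀ x, HasFDerivAt (fun x => Real.exp (-U x))
      (Real.exp (-U x) • -(innerSL ℝ (g x))) x := fun x => ((hg x).neg).exp
  have key := integral_bilinear_hasFDerivAt_right_eq_neg_left_of_integrable
    (μ := (volume : Measure E)) (f := f) (f' := fun x => innerSL ℝ (f' x))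
    (g := fun x => Real.exp (-U x)) (g' := fun x => Real.exp (-U x) • -(innerSL ℝ (g x)))
    (v := v) (B := ContinuousLinearMap.mul ℝ ℝ) ?_ ?_ ?_ (fun x _ => hf x) (fun x _ => hexp x)
  · simp only [ContinuousLinearMap.mul_apply', ContinuousLinearMap.smul_apply,
      ContinuousLinearMap.neg_apply, innerSL_apply_apply, smul_eq_mul] at key
    rw [gibbs_integral, gibbs_integral]
    congr 1
    have h1 : ∫ x, Real.exp (-U x) • (inner ℝ (f' x) v : ℝ) =
        ∫ x, inner ℝ (f' x) v * Real.exp (-U x) :=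
      integral_congr_ae (Eventually.of_forall fun x => by simp only [smul_eq_mul]; ring)
    have h2 : ∫ x, f x * (Real.exp (-U x) * -(inner ℝ (g x) v : ℝ)) =
        -∫ x, Real.exp (-U x) • (f x * inner ℝ (g x) v) := by
      rw [← integral_neg]
      refine integral_congr_ae (Eventually.of_forall fun x => ?_)
      simp only [smul_eq_mul]
      ring
    rw [h2] at key
    rw [h1]
    exact (neg_injective key).symm
  all_goals
    simp only [ContinuousLinearMap.mul_apply', ContinuousLinearMap.smul_apply,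
      ContinuousLinearMap.neg_apply, innerSL_apply_apply, smul_eq_mul]
  · have h1 := hU.integrable (f := fun x => (inner ℝ (f' x) v : ℝ))
      (hfp'.inner (PG.const v)) (hfc.inner continuous_const).aestronglyMeasurable
    unfold gibbs at h1
    rw [integrable_tilted_iff hU.integrable_exp] at h1
    refine h1.congr (Eventually.of_forall fun x => ?_)
    simp only [smul_eq_mul]
    ring
  · have h1 := hU.integrable (f := fun x => -(f x * (inner ℝ (g x) v : ℝ)))
      (hfp.mul (hgp.inner (PG.const v))).neg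
      (hfcont.mul (hgc.inner continuous_const)).neg.aestronglyMeasurable
    unfold gibbs at h1
    rw [integrable_tilted_iff hU.integrable_exp] at h1
    refine h1.congr (Eventually.of_forall fun x => ?_)
    simp only [smul_eq_mul]
    ring
  · have h1 := hU.integrable (f := f) hfp hfcont.aestronglyMeasurable
    unfold gibbs at h1
    rw [integrable_tilted_iff hU.integrable_exp] at h1
    refine h1.congr (Eventually.of_forall fun x => ?_)
    simp only [smul_eq_mul]
    ring

/-- Derivative of an integral against the unnormalised Gibbs density. -/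
theorem gibbs_num_hasDerivAt {U U' : ℝ → E → ℝ} {h h' : ℝ → E → F} {t0 r a b C : ℝ} {k : ℕ}
    (hr : 0 < r) (ha : 0 < a)
    (hU : ∀ t, |t - t0| < r → ∀ x, HasDerivAt (fun t => U t x) (U' t x) t)
    (hh : ∀ t, |t - t0| < r → ∀ x, HasDerivAt (fun t => h t x) (h' t x) t)
    (cU : ∀ t, |t - t0| < r → Continuous (U t)) (cU' : ∀ t, |t - t0| < r → Continuous (U' t))
    (ch : ∀ t, |t - t0| < r → Continuous (h t)) (ch' : ∀ t, |t - t0| < r → Continuous (h' t))
    (low : ∀ t, |t - t0| < r → ∀ x, a * ‖x‖ ^ 2 - b ≤ U t x)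
    (bU' : ∀ t, |t - t0| < r → ∀ x, |U' t x| ≤ C * (1 + ‖x‖) ^ k)
    (bh : ∀ t, |t - t0| < r → ∀ x, ‖h t x‖ ≤ C * (1 + ‖x‖) ^ k)
    (bh' : ∀ t, |t - t0| < r → ∀ x, ‖h' t x‖ ≤ C * (1 + ‖x‖) ^ k) :
    HasDerivAt (fun t => ∫ x, Real.exp (-U t x) • h t x)
      (∫ x, (Real.exp (-U t0 x) • h' t0 x - Real.exp (-U t0 x) • (U' t0 x • h t0 x))) t0 := by
  have hball : ∀ t, t ∈ Metric.ball t0 r ↔ |t - t0| < r := fun t => by
    rw [Metric.mem_ball, Real.dist_eq]
  have ht0 : |t0 - t0| < r := by simpa using hr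
  have hC : 0 ≤ C := by
    have := bU' t0 ht0 0
    rw [norm_zero, add_zero, one_pow, mul_one] at this
    exact (abs_nonneg _).trans this
  have h1 := hasDerivAt_integral_of_dominated_loc_of_deriv_le (μ := (volume : Measure E))
    (F := fun t x => Real.exp (-U t x) • h t x)
    (F' := fun t x => Real.exp (-U t x) • h' t x - Real.exp (-U t x) • (U' t x • h t x))
    (x₀ := t0) (s := Metric.ball t0 r)
    (bound := fun x => (C + C * C) * (1 + ‖x‖) ^ (k + k) * Real.exp (b - a * ‖x‖ ^ 2))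
    (Metric.ball_mem_nhds t0 hr) ?_ ?_ ?_ ?_ ?_ ?_
  · exact h1.2
  · filter_upwards [Metric.ball_mem_nhds t0 hr] with t ht
    have ht' := (hball t).1 ht
    exact ((Real.continuous_exp.comp (cU t ht').neg).smul (ch t ht')).aestronglyMeasurable
  · refine (integrable_pow_mul_exp (E := E) ha C k b).mono'
      ((Real.continuous_exp.comp (cU t0 ht0).neg).smul (ch t0 ht0)).aestronglyMeasurable
      (Eventually.of_forall fun x => ?_)
    rw [norm_smul, Real.norm_eq_abs, abs_of_pos (Real.exp_pos _), mul_comm]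
    apply mul_le_mul (bh t0 ht0 x) _ (Real.exp_pos _).le (by positivity)
    apply Real.exp_le_exp.2
    linarith [low t0 ht0 x]
  · exact (((Real.continuous_exp.comp (cU t0 ht0).neg).smul (ch' t0 ht0)).sub
      ((Real.continuous_exp.comp (cU t0 ht0).neg).smul
        ((cU' t0 ht0).smul (ch t0 ht0)))).aestronglyMeasurable
  · refine Eventually.of_forall fun x t ht => ?_
    have ht' := (hball t).1 ht
    have hx := one_le_one_add_norm x
    have e1 : Real.exp (-U t x) ≤ Real.exp (b - a * ‖x‖ ^ 2) := by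
      apply Real.exp_le_exp.2
      linarith [low t ht' x]
    have e2 : ‖h' t x - U' t x • h t x‖ ≤ (C + C * C) * (1 + ‖x‖) ^ (k + k) := by
      refine (norm_sub_le _ _).trans ?_
      rw [norm_smul, Real.norm_eq_abs]
      have e3 := bh' t ht' x
      have e4 : |U' t x| * ‖h t x‖ ≤ (C * (1 + ‖x‖) ^ k) * (C * (1 + ‖x‖) ^ k) :=
        mul_le_mul (bU' t ht' x) (bh t ht' x) (norm_nonneg _) (by positivity)
      have e5 : C * (1 + ‖x‖) ^ k ≤ C * (1 + ‖x‖) ^ (k + k) :=
        mul_le_mul_of_nonneg_left (pow_le_pow_right₀ hx (by omega)) hC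
      calc ‖h' t x‖ + |U' t x| * ‖h t x‖
          ≤ C * (1 + ‖x‖) ^ (k + k) + (C * (1 + ‖x‖) ^ k) * (C * (1 + ‖x‖) ^ k) :=
            add_le_add (e3.trans e5) e4
        _ = _ := by rw [pow_add]; ring
    rw [← smul_sub, norm_smul, Real.norm_eq_abs, abs_of_pos (Real.exp_pos _), mul_comm]
    exact mul_le_mul e2 e1 (Real.exp_pos _).le (by positivity)
  · exact integrable_pow_mul_exp (E := E) ha _ _ b
  · refine Eventually.of_forall fun x t ht => ?_
    have ht' := (hball t).1 ht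
    have e1 : HasDerivAt (fun t => Real.exp (-U t x)) (Real.exp (-U t x) * -U' t x) t :=
      ((hU t ht' x).neg).exp
    refine HasDerivAt.congr_deriv (e1.smul (hh t ht' x)) ?_
    rw [mul_neg, neg_smul, mul_smul, sub_eq_add_neg]

/-- Derivative of a Gibbs expectation along a one-parameter family of potentials. -/
theorem gibbs_hasDerivAt {U U' : ℝ → E → ℝ} {h h' : ℝ → E → F} {t0 r a b C : ℝ} {k : ℕ}
    (hr : 0 < r) (ha : 0 < a)
    (hU : ∀ t, |t - t0| < r → ∀ x, HasDerivAt (fun t => U t x) (U' t x) t)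
    (hh : ∀ t, |t - t0| < r → ∀ x, HasDerivAt (fun t => h t x) (h' t x) t)
    (cU : ∀ t, |t - t0| < r → Continuous (U t)) (cU' : ∀ t, |t - t0| < r → Continuous (U' t))
    (ch : ∀ t, |t - t0| < r → Continuous (h t)) (ch' : ∀ t, |t - t0| < r → Continuous (h' t))
    (low : ∀ t, |t - t0| < r → ∀ x, a * ‖x‖ ^ 2 - b ≤ U t x)
    (bU' : ∀ t, |t - t0| < r → ∀ x, |U' t x| ≤ C * (1 + ‖x‖) ^ k)
    (bh : ∀ t, |t - t0| < r → ∀ x, ‖h t x‖ ≤ C * (1 + ‖x‖) ^ k)
    (bh' : ∀ t, |t - t0| < r → ∀ x, ‖h' t x‖ ≤ C * (1 + ‖x‖) ^ k) :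
    HasDerivAt (fun t => ∫ x, h t x ∂(gibbs (U t)))
      ((∫ x, h' t0 x ∂(gibbs (U t0)))
        - ((∫ x, U' t0 x • h t0 x ∂(gibbs (U t0)))
          - (∫ x, U' t0 x ∂(gibbs (U t0))) • ∫ x, h t0 x ∂(gibbs (U t0)))) t0 := by
  have ht0 : |t0 - t0| < r := by simpa using hr
  have hadm : Adm (U t0) := ⟨cU t0 ht0, a, ha, b, low t0 ht0⟩
  have hC : 0 ≤ C := by
    have := bU' t0 ht0 0
    rw [norm_zero, add_zero, one_pow, mul_one] at this
    exact (abs_nonneg _).trans this
  have hnum := gibbs_num_hasDerivAt hr ha hU hh cU cU' ch ch' low bU' bh bh'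
  have hden := gibbs_num_hasDerivAt (h := fun _ _ => (1 : ℝ)) (h' := fun _ _ => (0 : ℝ))
    (C := C + 1) (k := k) hr ha hU (fun t _ x => hasDerivAt_const _ _) cU cU'
    (fun t _ => continuous_const) (fun t _ => continuous_const) low
    (fun t ht x => (bU' t ht x).trans (by
      have := one_le_one_add_norm x
      gcongr
      linarith))
    (fun t ht x => by
      have h1 : 1 ≤ (1 + ‖x‖) ^ k := one_le_pow₀ (one_le_one_add_norm x)
      rw [norm_one]
      nlinarith)
    (fun t ht x => by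
      rw [norm_zero]
      have := one_le_one_add_norm x
      positivity)
  simp only [smul_eq_mul, mul_one, mul_zero, zero_sub] at hden
  set Dn : ℝ → ℝ := fun t => ∫ x, Real.exp (-U t x) with hDn
  have hD0 : Dn t0 ≠ 0 := hadm.integral_exp_pos.ne'
  have hq := (hden.inv hD0).smul hnum
  have hfun : (fun t => ∫ x, h t x ∂(gibbs (U t))) =
      fun t => (Dn t)⁻¹ • ∫ x, Real.exp (-U t x) • h t x := by
    funext t
    exact gibbs_integral _
  rw [hfun]
  refine HasDerivAt.congr_deriv hq ?_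
  rw [gibbs_integral, gibbs_integral, gibbs_integral, gibbs_integral]
  have i1 : Integrable (fun x => Real.exp (-U t0 x) • h' t0 x) := by
    have := hadm.integrable (f := h' t0) ⟨C, k, bh' t0 ht0⟩ (ch' t0 ht0).aestronglyMeasurable
    unfold gibbs at this
    rwa [integrable_tilted_iff hadm.integrable_exp] at this
  have i2 : Integrable (fun x => Real.exp (-U t0 x) • (U' t0 x • h t0 x)) := by
    have hp1 : PG (U' t0) := ⟨C, k, bU' t0 ht0⟩
    have hp2 : PG (h t0) := ⟨C, k, bh t0 ht0⟩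
    have := hadm.integrable (f := fun x => U' t0 x • h t0 x) (hp1.smul hp2)
      ((cU' t0 ht0).smul (ch t0 ht0)).aestronglyMeasurable
    unfold gibbs at this
    rwa [integrable_tilted_iff hadm.integrable_exp] at this
  rw [integral_sub i1 i2, integral_neg]
  have e0 : ∫ x, Real.exp (-U t0 x) • U' t0 x = ∫ x, Real.exp (-U t0 x) * U' t0 x := rfl
  rw [e0]
  change (Dn t0)⁻¹ • ((∫ x, Real.exp (-U t0 x) • h' t0 x) -
      ∫ x, Real.exp (-U t0 x) • (U' t0 x • h t0 x)) +
    (-(-∫ x, Real.exp (-U t0 x) * U' t0 x) / Dn t0 ^ 2) • (∫ x, Real.exp (-U t0 x) • h t0 x) =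
    (Dn t0)⁻¹ • (∫ x, Real.exp (-U t0 x) • h' t0 x) -
    ((Dn t0)⁻¹ • (∫ x, Real.exp (-U t0 x) • (U' t0 x • h t0 x)) -
      ((Dn t0)⁻¹ • (∫ x, Real.exp (-U t0 x) * U' t0 x)) •
        ((Dn t0)⁻¹ • ∫ x, Real.exp (-U t0 x) • h t0 x))
  rw [smul_sub, neg_neg, smul_smul, smul_eq_mul]
  have e1 : (∫ x, Real.exp (-U t0 x) * U' t0 x) / Dn t0 ^ 2 =
      (Dn t0)⁻¹ * (∫ x, Real.exp (-U t0 x) * U' t0 x) * (Dn t0)⁻¹ := by
    field_simp
  rw [e1]
  abel

end Vale.Agent.P347
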